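import Mathlib

/-! The genus (Euler / Riemann–Hurwitz) inequality for pairs of permutations of a finite set. -/

set_option autoImplicit false

namespace Crest.Agent.Genus

open Equiv

variable {α : Type*}

/-- number of classes of a setoid -/
noncomputable def ncl (s : Setoid α) : ℕ := Nat.card (Quotient s)

/-- the cycles of a permutation, as a setoid -/
abbrev cs (σ : Perm α) : Setoid α := Equiv.Perm.SameCycle.setoid σ

/-- number of cycles of a permutation, fixed points included -/
noncomputable def cyc (σ : Perm α) : ℕ := Nat.card (Quotient (Equiv.Perm.SameCycle.setoid σ))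

theorem cyc_eq (σ : Perm α) : cyc σ = ncl (cs σ) := rfl

theorem cs_iff (σ : Perm α) (x y : α) : cs σ x y ↔ σ.SameCycle x y := Iff.rfl

theorem ncl_anti [Finite α] {s t : Setoid α} (h : s ≤ t) : ncl t ≤ ncl s := by
  refine Nat.card_le_card_of_surjective (Quotient.map' id (fun _ _ hxy => h hxy)) ?_
  intro q
  induction q using Quotient.inductionOn' with
  | h x => exact ⟨Quotient.mk'' x, rfl⟩

theorem ncl_lt [Finite α] {s t : Setoid α} (h : s ≤ t) {a b : α} (hab : t a b) (hn : ¬ s a b) :
    ncl t < ncl s := by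
  classical
  have := Fintype.ofFinite (Quotient s)
  have := Fintype.ofFinite (Quotient t)
  unfold ncl
  rw [Nat.card_eq_fintype_card, Nat.card_eq_fintype_card]
  refine Fintype.card_lt_of_surjective_not_injective
    (Quotient.map' id (fun _ _ hxy => h hxy) : Quotient s → Quotient t) ?_ ?_
  · intro q
    induction q using Quotient.inductionOn' with
    | h x => exact ⟨Quotient.mk'' x, rfl⟩
  · intro hinj
    apply hn
    have : (Quotient.mk'' a : Quotient s) = Quotient.mk'' b :=
      hinj (Quotient.sound' hab)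
    exact Quotient.exact' this

/-- the setoid obtained by gluing the classes of `a` and `b` -/
def glue (s : Setoid α) (a b : α) : Setoid α where
  r x y := s x y ∨ (s x a ∧ s y b) ∨ (s x b ∧ s y a)
  iseqv := by
    refine ⟨fun x => Or.inl (s.refl' x), ?_, ?_⟩
    · rintro x y (h | h | h)
      · exact Or.inl (s.symm' h)
      · exact Or.inr (Or.inr ⟨h.2, h.1⟩)
      · exact Or.inr (Or.inl ⟨h.2, h.1⟩)
    · rintro x y z (h | h | h) (k | k | k)
      · exact Or.inl (s.trans' h k)
      · exact Or.inr (Or.inl ⟨s.trans' h k.1, k.2⟩)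
      · exact Or.inr (Or.inr ⟨s.trans' h k.1, k.2⟩)
      · exact Or.inr (Or.inl ⟨h.1, s.trans' (s.symm' k) h.2⟩)
      · exact Or.inr (Or.inl ⟨h.1, k.2⟩)
      · exact Or.inl (s.trans' h.1 (s.symm' k.2))
      · exact Or.inr (Or.inr ⟨h.1, s.trans' (s.symm' k) h.2⟩)
      · exact Or.inl (s.trans' h.1 (s.symm' k.2))
      · exact Or.inr (Or.inr ⟨h.1, k.2⟩)

theorem glue_iff (s : Setoid α) (a b x y : α) :
    glue s a b x y ↔ s x y ∨ (s x a ∧ s y b) ∨ (s x b ∧ s y a) := Iff.rfl

theorem le_glue (s : Setoid α) (a b : α) : s ≤ glue s a b := fun _ _ h => Or.inl h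

theorem glue_rel (s : Setoid α) (a b : α) : glue s a b a b :=
  Or.inr (Or.inl ⟨s.refl' a, s.refl' b⟩)

theorem ncl_le_glue [Finite α] (s : Setoid α) (a b : α) : ncl s ≤ ncl (glue s a b) + 1 := by
  classical
  have hinj : Function.Injective (fun q : Quotient s =>
      if q = Quotient.mk'' b then (none : Option (Quotient (glue s a b)))
      else some (Quotient.mk'' q.out)) := by
    intro q q' h
    by_cases h1 : q = Quotient.mk'' b <;> by_cases h2 : q' = Quotient.mk'' b
    · rw [h1, h2]
    · simp [h1, h2] at h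
    · simp [h1, h2] at h
    · simp only [h1, h2, if_false, Option.some.injEq] at h
      have h3 : glue s a b q.out q'.out := Quotient.exact' h
      rcases h3 with h3 | h3 | h3
      · rw [← Quotient.out_eq q, ← Quotient.out_eq q']
        exact Quotient.sound' h3
      · exact absurd (by rw [← Quotient.out_eq q']; exact Quotient.sound' h3.2) h2
      · exact absurd (by rw [← Quotient.out_eq q]; exact Quotient.sound' h3.1) h1
  have := Nat.card_le_card_of_injective _ hinj
  rwa [Finite.card_option] at this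

/-- a setoid contains the cycles of `σ` iff it relates each point to its image -/
theorem cs_le_iff [Finite α] {σ : Perm α} {t : Setoid α} : cs σ ≤ t ↔ ∀ x, t x (σ x) := by
  constructor
  · intro h x
    exact h ⟨1, by simp⟩
  · intro h x y hxy
    obtain ⟨n, rfl⟩ := Perm.SameCycle.exists_nat_pow_eq hxy
    induction n with
    | zero => exact t.refl' x
    | succ n ih =>
      rw [pow_succ', Perm.mul_apply]
      exact t.trans' (ih ⟨n, by simp⟩) (h _)

theorem cs_rel (σ : Perm α) (x : α) : cs σ x (σ x) := ⟨1, by simp⟩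

variable [DecidableEq α]

theorem cs_le_of_swap [Finite α] {ρ : Perm α} {a b : α} {t : Setoid α}
    (h : cs (ρ * swap a b) ≤ t) (hab : t a b) : cs ρ ≤ t := by
  rw [cs_le_iff] at h ⊢
  intro x
  have h1 := h (swap a b x)
  rw [Perm.mul_apply, swap_apply_self] at h1
  refine t.trans' ?_ h1
  rw [swap_apply_def]
  split_ifs with h2 h3
  · rw [h2]; exact hab
  · rw [h3]; exact t.symm' hab
  · exact t.refl' x

theorem cs_swap_le [Finite α] {ρ : Perm α} {a b : α} {t : Setoid α}
    (h : cs ρ ≤ t) (hab : t a b) : cs (ρ * swap a b) ≤ t := by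
  apply cs_le_of_swap (a := a) (b := b) _ hab
  rwa [mul_assoc, swap_mul_self, mul_one]

theorem cyc_mul_swap_le [Finite α] (ρ : Perm α) (a b : α) : cyc (ρ * swap a b) ≤ cyc ρ + 1 := by
  rw [cyc_eq, cyc_eq]
  have h1 := ncl_le_glue (cs (ρ * swap a b)) a b
  have h2 := ncl_anti (cs_le_of_swap (le_glue (cs (ρ * swap a b)) a b) (glue_rel _ a b))
  omega

theorem sameCycle_mul_swap [Finite α] {ρ : Perm α} {a b : α} (h : ¬ ρ.SameCycle a b) :
    (ρ * swap a b).SameCycle a b := by
  -- walk around the `ρ`-cycle of `a`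
  have hb : cs (ρ * swap a b) b (ρ a) := by
    have := cs_rel (ρ * swap a b) b
    rwa [Perm.mul_apply, swap_apply_right] at this
  have key : ∀ n : ℕ, cs (ρ * swap a b) b ((ρ ^ (n + 1)) a) ∨ cs (ρ * swap a b) b a := by
    intro n
    induction n with
    | zero => left; simpa using hb
    | succ n ih =>
      rcases ih with ih | ih
      · by_cases h1 : (ρ ^ (n + 1)) a = a
        · right; rwa [h1] at ih
        · left
          have h2 : (ρ ^ (n + 1)) a ≠ b := fun h2 => h ⟨(n + 1 : ℕ), by rw [zpow_natCast]; exact h2⟩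
          have := cs_rel (ρ * swap a b) ((ρ ^ (n + 1)) a)
          rw [Perm.mul_apply, swap_apply_of_ne_of_ne h1 h2] at this
          rw [pow_succ' ρ (n + 1), Perm.mul_apply]
          exact (cs _).trans' ih this
      · exact Or.inr ih
  have hpos : 0 < orderOf ρ := orderOf_pos ρ
  rcases key (orderOf ρ - 1) with h1 | h1
  · rw [Nat.sub_add_cancel hpos, pow_orderOf_eq_one] at h1
    exact ((cs _).symm' h1 : cs (ρ * swap a b) a b)
  · exact ((cs _).symm' h1 : cs (ρ * swap a b) a b)

theorem cyc_mul_swap_lt [Finite α] {ρ : Perm α} {a b : α} (h : ¬ ρ.SameCycle a b) :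
    cyc (ρ * swap a b) < cyc ρ := by
  have h1 : cs (ρ * swap a b) a b := sameCycle_mul_swap h
  exact ncl_lt (cs_le_of_swap le_rfl h1) h1 h

/-- multiplying by a transposition of two points of different cycles merges the cycles -/
theorem cyc_mul_swap_of_not [Finite α] {ρ : Perm α} {a b : α} (h : ¬ ρ.SameCycle a b) :
    cyc (ρ * swap a b) + 1 = cyc ρ := by
  have h1 := cyc_mul_swap_lt h
  have h2 := cyc_mul_swap_le (ρ * swap a b) a b
  rw [mul_assoc, swap_mul_self, mul_one] at h2
  omega

omit [DecidableEq α] in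
theorem cs_one : cs (1 : Perm α) = ⊥ := by
  ext x y
  rw [cs_iff, Perm.sameCycle_one]
  rfl

omit [DecidableEq α] in
theorem ncl_bot : ncl (⊥ : Setoid α) = Nat.card α := by
  unfold ncl
  refine (Nat.card_congr (Equiv.ofBijective (Quotient.mk'' : α → Quotient (⊥ : Setoid α)) ⟨?_, ?_⟩)).symm
  · intro x y h
    exact Quotient.exact' h
  · intro q
    induction q using Quotient.inductionOn' with
    | h x => exact ⟨x, rfl⟩

omit [DecidableEq α] in
theorem cyc_one : cyc (1 : Perm α) = Nat.card α := by rw [cyc_eq, cs_one, ncl_bot]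

omit [DecidableEq α] in
theorem cyc_le_card [Finite α] (σ : Perm α) : cyc σ ≤ Nat.card α := by
  rw [cyc_eq, ← ncl_bot]; exact ncl_anti bot_le

omit [DecidableEq α] in
/-- **Genus inequality**: cycles of `σ`, `τ` and `σ * τ` against the orbits of `⟨σ, τ⟩`. -/
theorem genus_le [Finite α] (σ τ : Perm α) :
    cyc σ + cyc τ + cyc (σ * τ) ≤ Nat.card α + 2 * ncl (cs σ ⊔ cs τ) := by
  classical
  induction hn : Nat.card α - cyc τ using Nat.strong_induction_on generalizing τ with
  | _ n ih =>
    by_cases h1 : τ = 1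
    · subst h1
      rw [mul_one, cyc_one, cs_one, sup_bot_eq, ← cyc_eq]
      omega
    · obtain ⟨a, ha⟩ : ∃ a, τ a ≠ a := by
        by_contra hc
        push Not at hc
        exact h1 (Equiv.ext hc)
      -- `τ = τ' * swap a b` with `b` fixed by `τ'`... take `b = τ⁻¹ a`
      set b := τ⁻¹ a with hb
      have hba : τ b = a := by simp [hb]
      have hne : a ≠ b := fun h => ha (by rw [← h] at hba; exact hba)
      set τ' := τ * swap a b with hτ'
      have hτ : τ = τ' * swap a b := by rw [hτ', mul_assoc, swap_mul_self, mul_one]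
      have hfix : τ' a = a := by rw [hτ', Perm.mul_apply, swap_apply_left, hba]
      have hns : ¬ τ'.SameCycle a b := fun h => hne (h.eq_of_left hfix)
      have hc : cyc τ + 1 = cyc τ' := by
        have := cyc_mul_swap_of_not hns
        rwa [← hτ] at this
      have hle := cyc_le_card τ'
      have IH := ih (Nat.card α - cyc τ') (by omega) τ' rfl
      have hst : σ * τ = σ * τ' * swap a b := by rw [mul_assoc, ← hτ]
      have hsup : cs σ ⊔ cs τ ≤ glue (cs σ ⊔ cs τ') a b := by
        refine sup_le (le_sup_left.trans (le_glue _ a b)) ?_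
        rw [hτ]
        exact cs_swap_le (le_sup_right.trans (le_glue _ a b)) (glue_rel _ a b)
      by_cases h2 : (cs σ ⊔ cs τ') a b
      · have h3 : cs σ ⊔ cs τ ≤ cs σ ⊔ cs τ' := by
          refine sup_le le_sup_left ?_
          rw [hτ]
          exact cs_swap_le le_sup_right h2
        have h4 := ncl_anti h3
        have h5 := cyc_mul_swap_le (σ * τ') a b
        rw [← hst] at h5
        omega
      · have h3 : ¬ (σ * τ').SameCycle a b := by
          intro h
          apply h2
          have : cs (σ * τ') ≤ cs σ ⊔ cs τ' := by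
            rw [cs_le_iff]
            intro x
            exact (cs σ ⊔ cs τ').trans' (le_sup_right (a := cs σ) (cs_rel τ' x))
              (le_sup_left (b := cs τ') (cs_rel σ (τ' x)))
          exact this h
        have h4 := cyc_mul_swap_of_not h3
        rw [← hst] at h4
        have h5 := ncl_anti hsup
        have h6 := ncl_le_glue (cs σ ⊔ cs τ') a b
        omega

/-- a transposition of two points of one cycle splits it -/
theorem not_sameCycle_mul_swap [Finite α] {ρ : Perm α} {a b : α} (hne : a ≠ b)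
    (h : ρ.SameCycle a b) : ¬ (ρ * swap a b).SameCycle a b := by
  classical
  have hex : ∃ k : ℕ, (ρ ^ k) a = b := Perm.SameCycle.exists_nat_pow_eq h
  set k := Nat.find hex with hk
  have hkb : (ρ ^ k) a = b := Nat.find_spec hex
  have hmin : ∀ j < k, (ρ ^ j) a ≠ b := fun j hj => Nat.find_min hex hj
  have hk0 : 0 < k := by
    rcases Nat.eq_zero_or_pos k with h0 | h0
    · rw [h0] at hkb; exact absurd hkb hne
    · exact h0
  have hna : ∀ j, 0 < j → j ≤ k → (ρ ^ j) a ≠ a := by
    intro j hj hjk hja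
    apply hmin (k - j) (by omega)
    have : ρ ^ k = ρ ^ (k - j) * ρ ^ j := by rw [← pow_add, Nat.sub_add_cancel hjk]
    rw [this, Perm.mul_apply, hja] at hkb
    exact hkb
  intro hs
  obtain ⟨n, hn⟩ := Perm.SameCycle.exists_nat_pow_eq hs.symm
  have key : ∀ n : ℕ, ∃ j, 0 < j ∧ j ≤ k ∧ ((ρ * swap a b) ^ n) b = (ρ ^ j) a := by
    intro n
    induction n with
    | zero => exact ⟨k, hk0, le_rfl, by simp [hkb]⟩
    | succ n ih =>
      obtain ⟨j, hj0, hjk, hj⟩ := ih
      rw [pow_succ', Perm.mul_apply, hj, Perm.mul_apply]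
      rcases hjk.lt_or_eq with hlt | heq
      · refine ⟨j + 1, by omega, hlt, ?_⟩
        rw [swap_apply_of_ne_of_ne (hna j hj0 hjk) (hmin j hlt), pow_succ', Perm.mul_apply]
      · refine ⟨1, one_pos, hk0, ?_⟩
        rw [heq, hkb, swap_apply_right, pow_one]
  obtain ⟨j, hj0, hjk, hj⟩ := key n
  exact hna j hj0 hjk (hj.symm.trans hn)

/-- multiplying by a transposition of two points of one cycle splits the cycle -/
theorem cyc_mul_swap_of_same [Finite α] {ρ : Perm α} {a b : α} (hne : a ≠ b)
    (h : ρ.SameCycle a b) : cyc (ρ * swap a b) = cyc ρ + 1 := by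
  have := cyc_mul_swap_of_not (not_sameCycle_mul_swap hne h)
  rw [mul_assoc, swap_mul_self, mul_one] at this
  omega

omit [DecidableEq α] in
theorem cs_mul_le [Finite α] (σ τ : Perm α) : cs (σ * τ) ≤ cs σ ⊔ cs τ := by
  rw [cs_le_iff]
  intro x
  exact (cs σ ⊔ cs τ).trans' (le_sup_right (a := cs σ) (cs_rel τ x))
    (le_sup_left (b := cs τ) (cs_rel σ (τ x)))

/-- one step: merging two cycles of `τ'` does not lower the genus defect
`card + 2 * orbits - cyc σ - cyc τ - cyc (σ * τ)`. -/
theorem defect_step [Finite α] (σ τ' : Perm α) {a b : α} (hns : ¬ τ'.SameCycle a b) :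
    cyc (τ' * swap a b) + cyc (σ * (τ' * swap a b)) + 2 * ncl (cs σ ⊔ cs τ') ≤
      cyc τ' + cyc (σ * τ') + 2 * ncl (cs σ ⊔ cs (τ' * swap a b)) := by
  have hc := cyc_mul_swap_of_not hns
  rw [← mul_assoc]
  by_cases h2 : (cs σ ⊔ cs τ') a b
  · have h3 : cs σ ⊔ cs (τ' * swap a b) ≤ cs σ ⊔ cs τ' :=
      sup_le le_sup_left (cs_swap_le le_sup_right h2)
    have h4 := ncl_anti h3
    have h5 := cyc_mul_swap_le (σ * τ') a b
    omega
  · have hsup : cs σ ⊔ cs (τ' * swap a b) ≤ glue (cs σ ⊔ cs τ') a b :=
      sup_le (le_sup_left.trans (le_glue _ a b))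
        (cs_swap_le (le_sup_right.trans (le_glue _ a b)) (glue_rel _ a b))
    have h3 : ¬ (σ * τ').SameCycle a b := fun h => h2 (cs_mul_le σ τ' h)
    have h4 := cyc_mul_swap_of_not h3
    have h5 := ncl_anti hsup
    have h6 := ncl_le_glue (cs σ ⊔ cs τ') a b
    omega

omit [DecidableEq α] in
theorem cs_inv (σ : Perm α) : cs σ⁻¹ = cs σ := by
  ext x y
  exact Perm.sameCycle_inv

omit [DecidableEq α] in
theorem cyc_inv (σ : Perm α) : cyc σ⁻¹ = cyc σ := by rw [cyc_eq, cyc_eq, cs_inv]

omit [DecidableEq α] in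
theorem cyc_congr {β : Type*} (e : α ≃ β) {σ : Perm α} {τ : Perm β} (h : ∀ x, e (σ x) = τ (e x)) :
    cyc σ = cyc τ := by
  have hτ : τ = e.permCongr σ := by
    ext y
    rw [Equiv.permCongr_apply, h, Equiv.apply_symm_apply]
  have hz : ∀ (n : ℤ) x, e ((σ ^ n) x) = (τ ^ n) (e x) := by
    intro n x
    have : τ ^ n = e.permCongr (σ ^ n) := by
      rw [hτ]
      exact (map_zpow (Equiv.permCongrHom e) σ n).symm
    rw [this, Equiv.permCongr_apply, Equiv.symm_apply_apply]
  refine Nat.card_congr (Quotient.congr e fun x y => ⟨?_, ?_⟩)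
  · rintro ⟨n, hn⟩
    exact ⟨n, by rw [← hz, hn]⟩
  · rintro ⟨n, hn⟩
    exact ⟨n, e.injective (by rw [hz, hn])⟩

omit [DecidableEq α] in
theorem cyc_mul_comm (σ τ : Perm α) : cyc (σ * τ) = cyc (τ * σ) :=
  cyc_congr τ (fun _ => rfl)

omit [DecidableEq α] in
/-- a permutation all of whose cycles have exactly `k` points -/
theorem card_eq_mul_cyc [Finite α] (σ : Perm α) (k : ℕ)
    (h : ∀ x, Nat.card {y // σ.SameCycle x y} = k) : Nat.card α = k * cyc σ := by
  classical
  have := Fintype.ofFinite α
  have := Fintype.ofFinite (Quotient (cs σ))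
  have e : α ≃ Σ q : Quotient (cs σ), {y // (Quotient.mk'' y : Quotient (cs σ)) = q} :=
    (Equiv.sigmaFiberEquiv _).symm
  rw [Nat.card_congr e, Nat.card_sigma, cyc, Nat.card_eq_fintype_card (α := Quotient (cs σ))]
  rw [Finset.sum_congr rfl (g := fun _ => k), Finset.sum_const, smul_eq_mul, mul_comm,
    Finset.card_univ]
  intro q _
  induction q using Quotient.inductionOn' with
  | h x =>
    rw [← h x]
    refine Nat.card_congr (Equiv.subtypeEquivRight fun y => ?_)
    rw [Quotient.eq'']
    exact ⟨fun h => Perm.SameCycle.symm h, fun h => Perm.SameCycle.symm h⟩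

end Crest.Agent.Genus
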